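import Mathlib

/-! # P015: prime-free discs on polynomial curves -/

open Polynomial Filter

namespace Vale.Agent.P015.H542b

/-- the Gaussian integer `A(x) + i B(x)` -/
def pt (A B : ℤ[X]) (x : ℤ) : GaussianInt := ⟨A.eval x, B.eval x⟩

lemma self_dvd_norm (c : GaussianInt) : c ∣ ((Zsqrtd.norm c : ℤ) : GaussianInt) := by
  refine ⟨star c, ?_⟩
  rw [Zsqrtd.norm_eq_mul_conj]

lemma pt_congr (A B : ℤ[X]) (x m : ℤ) : ((m : ℤ) : GaussianInt) ∣ pt A B (x + m) - pt A B x := by
  have hA : m ∣ A.eval (x + m) - A.eval x := by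
    have := A.sub_dvd_eval_sub (x + m) x
    rwa [add_sub_cancel_left] at this
  have hB : m ∣ B.eval (x + m) - B.eval x := by
    have := B.sub_dvd_eval_sub (x + m) x
    rwa [add_sub_cancel_left] at this
  rw [Zsqrtd.intCast_dvd]
  exact ⟨by simpa [pt] using hA, by simpa [pt] using hB⟩

lemma pt_dvd (A B : ℤ[X]) (x k : ℤ) (c d : GaussianInt) (hc : c ∣ pt A B x + d) :
    c ∣ pt A B (x + Zsqrtd.norm c * k) + d := by
  have h1 := pt_congr A B x (Zsqrtd.norm c * k)
  have h2 : c ∣ pt A B (x + Zsqrtd.norm c * k) - pt A B x := by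
    refine Dvd.dvd.trans ?_ h1
    push_cast
    exact (self_dvd_norm c).mul_right _
  have e : pt A B (x + Zsqrtd.norm c * k) + d =
      (pt A B (x + Zsqrtd.norm c * k) - pt A B x) + (pt A B x + d) := by ring
  rw [e]
  exact dvd_add h2 hc

lemma tendsto_abs_eval {A : ℤ[X]} (hA : 0 < A.natDegree) :
    Tendsto (fun x : ℤ => |A.eval x|) atTop atTop := by
  have h1 : 0 < (A.map (Int.castRingHom ℝ)).degree := by
    rw [Polynomial.degree_map_eq_of_injective (RingHom.injective_int _)]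
    exact natDegree_pos_iff_degree_pos.1 hA
  have h2 : Tendsto (fun x : ℤ => |(A.map (Int.castRingHom ℝ)).eval (x : ℝ)|) atTop atTop :=
    (Polynomial.abs_tendsto_atTop _ h1).comp tendsto_intCast_atTop_atTop
  have h3 : (fun x : ℤ => |(A.map (Int.castRingHom ℝ)).eval (x : ℝ)|) =
      fun x : ℤ => ((|A.eval x| : ℤ) : ℝ) := by
    funext x
    have : (A.map (Int.castRingHom ℝ)).eval (x : ℝ) = ((A.eval x : ℤ) : ℝ) := by
      simp
    rw [this]
    push_cast
    rfl
  rw [h3] at h2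
  exact tendsto_intCast_atTop_iff.1 h2

lemma tendsto_norm_pt {A B : ℤ[X]} (h : 0 < A.natDegree ∨ 0 < B.natDegree) (d : GaussianInt) :
    Tendsto (fun x : ℤ => Zsqrtd.norm (pt A B x + d)) atTop atTop := by
  have key : ∀ (P : ℤ[X]) (u : ℤ), 0 < P.natDegree →
      Tendsto (fun x : ℤ => (P.eval x + u) * (P.eval x + u)) atTop atTop := by
    intro P u hP
    have h1 := tendsto_abs_eval hP
    have h2 : Tendsto (fun x : ℤ => |P.eval x| - |u|) atTop atTop :=
      tendsto_atTop_add_const_right _ _ h1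
    have h3 : Tendsto (fun x : ℤ => |P.eval x + u|) atTop atTop := by
      refine tendsto_atTop_mono (fun x => ?_) h2
      have := abs_sub_abs_le_abs_sub (P.eval x) (-u)
      rwa [abs_neg, sub_neg_eq_add] at this
    have h4 := h3.atTop_mul_atTop₀ h3
    refine h4.congr fun x => ?_
    exact abs_mul_abs_self _
  have hn : ∀ x, Zsqrtd.norm (pt A B x + d) =
      (A.eval x + d.re) * (A.eval x + d.re) + (B.eval x + d.im) * (B.eval x + d.im) := by
    intro x
    simp only [Zsqrtd.norm, pt, Zsqrtd.re_add, Zsqrtd.im_add]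
    ring
  simp_rw [hn]
  rcases h with h | h
  · exact tendsto_atTop_mono (fun x => le_add_of_nonneg_right (mul_self_nonneg _))
      (key A d.re h)
  · exact tendsto_atTop_mono (fun x => le_add_of_nonneg_left (mul_self_nonneg _))
      (key B d.im h)

lemma tendsto_prog {M x₀ : ℤ} (hM : 0 < M) : Tendsto (fun k : ℤ => x₀ + M * k) atTop atTop := by
  rw [tendsto_atTop]
  intro b
  filter_upwards [eventually_ge_atTop (max 0 (b - x₀))] with k hk
  have h0 : 0 ≤ k := (le_max_left _ _).trans hk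
  have h1 : b - x₀ ≤ k := (le_max_right _ _).trans hk
  have h2 : k ≤ M * k := le_mul_of_one_le_left h0 (Int.add_one_le_iff.2 hM)
  linarith

/-- the progression of the translates -/
lemma prog {A B : ℤ[X]} (h : 0 < A.natDegree ∨ 0 < B.natDegree) (N : ℤ)
    (S : Finset GaussianInt) : ∃ M x₀ : ℤ, 0 < M ∧ N ≤ x₀ ∧ ∀ k : ℤ, 0 ≤ k → ∀ d ∈ S,
      ∃ c : GaussianInt, c ∣ pt A B (x₀ + M * k) + d ∧ 1 < Zsqrtd.norm c ∧
        Zsqrtd.norm c ≤ M := by
  classical
  induction S using Finset.induction_on with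
  | empty => exact ⟨1, N, one_pos, le_rfl, fun k _ d hd => absurd hd (Finset.notMem_empty d)⟩
  | insert d S _ ih =>
    obtain ⟨M, x₀, hM, hx, hS⟩ := ih
    have h1 := tendsto_norm_pt h d
    have h2 : Tendsto (fun k : ℤ => x₀ + M * k) atTop atTop :=
      tendsto_prog hM
    obtain ⟨k₀, hk₀, hk₁⟩ := (((h1.comp h2).eventually (eventually_gt_atTop 1)).and
      (eventually_ge_atTop 0)).exists
    simp only [Function.comp] at hk₀
    obtain ⟨c, hc⟩ : ∃ c, c = pt A B (x₀ + M * k₀) + d := ⟨_, rfl⟩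
    rw [← hc] at hk₀
    obtain ⟨m, hm⟩ : ∃ m : ℤ, m = Zsqrtd.norm c := ⟨_, rfl⟩
    rw [← hm] at hk₀
    have hc0 : 0 < m := lt_trans one_pos hk₀
    have hMk : 0 ≤ M * k₀ := mul_nonneg hM.le hk₁
    have hle : M ≤ M * m := le_mul_of_one_le_right hM.le hk₀.le
    have hle' : m ≤ M * m := le_mul_of_one_le_left hc0.le (Int.add_one_le_iff.2 hM)
    refine ⟨M * m, x₀ + M * k₀, mul_pos hM hc0, le_add_of_le_of_nonneg hx hMk, ?_⟩
    intro k hk d' hd'
    rcases Finset.mem_insert.1 hd' with rfl | hd'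
    · refine ⟨c, ?_, hm ▸ hk₀, hm ▸ hle'⟩
      have := pt_dvd A B (x₀ + M * k₀) (M * k) c d' (by rw [← hc])
      rw [← hm] at this
      have e : x₀ + M * k₀ + M * m * k = x₀ + M * k₀ + m * (M * k) := by ring
      rw [e]; exact this
    · obtain ⟨c', h1', h2', h3'⟩ := hS (k₀ + m * k)
        (add_nonneg hk₁ (mul_nonneg hc0.le hk)) d' hd'
      refine ⟨c', ?_, h2', h3'.trans hle⟩
      have e : x₀ + M * k₀ + M * m * k = x₀ + M * (k₀ + m * k) := by ring
      rw [e]; exact h1'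

lemma not_prime_of {p c : GaussianInt} {M : ℤ} (hcp : c ∣ p) (h1 : 1 < Zsqrtd.norm c)
    (hM : Zsqrtd.norm c ≤ M) (hp : M < Zsqrtd.norm p) : ¬ Prime p := by
  intro hpr
  obtain ⟨e, he⟩ := hcp
  rcases hpr.irreducible.isUnit_or_isUnit he with hu | hu
  · have := (Zsqrtd.norm_eq_one_iff' (by norm_num) c).2 hu
    rw [this] at h1
    exact lt_irrefl _ h1
  · have hu' := (Zsqrtd.norm_eq_one_iff' (by norm_num) e).2 hu
    rw [he, Zsqrtd.norm_mul, hu', mul_one] at hp
    exact absurd (lt_of_le_of_lt hM hp) (lt_irrefl _)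

/-- **Prime-free discs** with centre on the curve `A(x) + i B(x)`. -/
theorem barrier {A B : ℤ[X]} (h : 0 < A.natDegree ∨ 0 < B.natDegree) (N : ℤ)
    (S : Finset GaussianInt) : ∃ x : ℤ, N ≤ x ∧ ∀ d ∈ S, ¬ Prime (pt A B x + d) := by
  obtain ⟨M, x₀, hM, hx, hS⟩ := prog h N S
  have h2 : Tendsto (fun k : ℤ => x₀ + M * k) atTop atTop :=
    tendsto_prog hM
  have h3 : ∀ᶠ k : ℤ in atTop, ∀ d ∈ S, M < Zsqrtd.norm (pt A B (x₀ + M * k) + d) := by
    rw [Filter.eventually_all_finset]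
    intro d _
    exact ((tendsto_norm_pt h d).comp h2).eventually (eventually_gt_atTop M)
  obtain ⟨k, hk, hk0⟩ := (h3.and (eventually_ge_atTop 0)).exists
  refine ⟨x₀ + M * k, le_add_of_le_of_nonneg hx (mul_nonneg hM.le hk0), fun d hd => ?_⟩
  obtain ⟨c, hc, hc1, hcM⟩ := hS k hk0 d hd
  exact not_prime_of hc hc1 hcM (hk d hd)

end Vale.Agent.P015.H542b
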