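import Vale.Agent.P015.H542b.Graph

/-! # P015: connected components near the graph of a polynomial -/

open Polynomial Filter

namespace Vale.Agent.P015.H542b

/-- König's lemma for an infinite component of a locally finite graph. -/
theorem konig {V : Type*} (H : SimpleGraph V) (hfin : ∀ v, (H.neighborSet v).Finite)
    (K : H.ConnectedComponent) (hK : K.supp.Infinite) :
    ∃ γ : ℕ → V, Function.Injective γ ∧ ∀ n, H.Adj (γ n) (γ (n + 1)) := by
  obtain ⟨v₀, hv₀⟩ := hK.nonempty
  have tri : ∀ a b c : V, H.Reachable a b → H.Reachable b c →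
      H.dist a c ≤ H.dist a b + H.dist b c := by
    intro a b c hab hbc
    obtain ⟨p, hp⟩ := hab.exists_walk_length_eq_dist
    obtain ⟨q, hq⟩ := hbc.exists_walk_length_eq_dist
    have := H.dist_le (p.append q)
    rwa [SimpleGraph.Walk.length_append, hp, hq] at this
  let S : V → Set V := fun v => {u | H.Reachable v u ∧ H.dist v₀ u = H.dist v₀ v + H.dist v u}
  have step : ∀ v, H.Reachable v₀ v → (S v).Infinite →
      ∃ v', H.Adj v v' ∧ H.dist v₀ v' = H.dist v₀ v + 1 ∧ (S v').Infinite := by
    intro v hv hS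
    by_contra hcon
    push Not at hcon
    apply hS
    have hsub : S v ⊆ {v} ∪ ⋃ v' ∈ {v' | v' ∈ H.neighborSet v ∧
        H.dist v₀ v' = H.dist v₀ v + 1}, S v' := by
      intro u hu
      obtain ⟨hu1, hu2⟩ := hu
      by_cases huv : u = v
      · left; exact huv
      right
      obtain ⟨p, hp⟩ := hu1.exists_walk_length_eq_dist
      cases p with
      | nil => exact absurd rfl huv
      | @cons _ v' _ hadj q =>
        rw [SimpleGraph.Walk.length_cons] at hp
        have hq := H.dist_le q
        have h1 : H.dist v v' ≤ 1 := by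
          have := H.dist_le (SimpleGraph.Walk.cons hadj SimpleGraph.Walk.nil)
          simpa using this
        have hv'u : H.Reachable v' u := ⟨q⟩
        have hvv' : H.Reachable v v' := hadj.reachable
        have h2 := tri v v' u hvv' hv'u
        have h3 := tri v₀ v v' hv hvv'
        have h4 := tri v₀ v' u (hv.trans hvv') hv'u
        rw [Set.mem_iUnion₂]
        refine ⟨v', ⟨hadj, by omega⟩, hv'u, by omega⟩
    refine Set.Finite.subset ((Set.finite_singleton v).union (Set.Finite.biUnion ?_ ?_)) hsub
    · exact (hfin v).subset fun v' h => h.1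
    · intro v' hv'
      exact hcon v' hv'.1 hv'.2
  have hS0 : (S v₀).Infinite := by
    refine hK.mono fun u hu => ?_
    have : H.Reachable v₀ u := by
      rw [SimpleGraph.ConnectedComponent.mem_supp_iff] at hu hv₀
      exact SimpleGraph.ConnectedComponent.exact (hv₀.trans hu.symm)
    exact ⟨this, by rw [SimpleGraph.dist_self, zero_add]⟩
  choose! nx hnx using step
  let st : ℕ → {v : V // H.Reachable v₀ v ∧ (S v).Infinite} := fun n =>
    Nat.rec ⟨v₀, SimpleGraph.Reachable.refl _, hS0⟩
      (fun _ s => ⟨nx s.1, s.2.1.trans (hnx s.1 s.2.1 s.2.2).1.reachable,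
        (hnx s.1 s.2.1 s.2.2).2.2⟩) n
  have hst : ∀ n, (st (n + 1)).1 = nx (st n).1 := fun n => rfl
  have hadj : ∀ n, H.Adj (st n).1 (st (n + 1)).1 := by
    intro n
    rw [hst]
    exact (hnx _ (st n).2.1 (st n).2.2).1
  have hdist : ∀ n, H.dist v₀ (st n).1 = n := by
    intro n
    induction n with
    | zero => exact SimpleGraph.dist_self
    | succ n ih =>
      rw [hst, (hnx _ (st n).2.1 (st n).2.2).2.1, ih]
  exact ⟨fun n => (st n).1, fun m n hmn => by
    have h1 := hdist m
    have h2 := hdist n
    simp only at hmn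
    rw [hmn] at h1
    exact h1.symm.trans h2, hadj⟩

lemma finite_nbr (D : ℝ) (z : {z : GaussianInt // Prime z}) :
    ((moatGraph D).neighborSet z).Finite := by
  have hfin : Set.Finite ((fun w : {z : GaussianInt // Prime z} => w.1 - z.1) ⁻¹'
      (sq ⌈D⌉ : Set GaussianInt)) := by
    apply (sq ⌈D⌉).finite_toSet.preimage
    intro a _ b _ hab
    exact Subtype.ext (sub_left_injective hab)
  refine hfin.subset fun w hw => ?_
  have hd : dist (GaussianInt.toComplex z.1) (GaussianInt.toComplex w.1) ≤ D := hw.2
  rw [dist_comm] at hd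
  simp only [Set.mem_preimage, Finset.mem_coe]
  apply mem_sq
  · have h1 := (abs_re_sub_le _ _).trans hd
    rw [← GaussianInt.intCast_re, ← GaussianInt.intCast_re] at h1
    have h2 : |((w.1 - z.1).re : ℝ)| ≤ D := by simpa [Zsqrtd.re_sub] using h1
    exact_mod_cast h2.trans (Int.le_ceil D)
  · have h1 := (abs_im_sub_le _ _).trans hd
    rw [← GaussianInt.intCast_im, ← GaussianInt.intCast_im] at h1
    have h2 : |((w.1 - z.1).im : ℝ)| ≤ D := by simpa [Zsqrtd.im_sub] using h1
    exact_mod_cast h2.trans (Int.le_ceil D)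

/-- the Gaussian primes `z` within `(log |z|) ^ β` of the graph of `P` -/
def nearGraph (P : ℤ[X]) (β : ℝ) : Set {z : GaussianInt // Prime z} :=
  {z | ∃ x : ℝ, dist (GaussianInt.toComplex z.1) ⟨x, aeval x P⟩ ≤
    Real.log ‖GaussianInt.toComplex z.1‖ ^ β}

/-- all components of `G_D` near the graph of a polynomial are finite -/
theorem components (P : ℤ[X]) {D β : ℝ} (hβ0 : 0 < β) (hβ : β < 1 / 2)
    (K : ((moatGraph D).induce (nearGraph P β)).ConnectedComponent) : K.supp.Finite := by
  by_contra hcon
  obtain ⟨γ, hγ1, hγ2⟩ := konig ((moatGraph D).induce (nearGraph P β)) (fun v => by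
    refine ((finite_nbr D v.1).preimage
      (f := fun w : nearGraph P β => (w : {z : GaussianInt // Prime z}))
      Subtype.val_injective.injOn).subset fun w hw => hw) K hcon
  have hp : IsInfinitePath D (fun n => (γ n).1) :=
    ⟨Subtype.val_injective.comp hγ1, fun n => hγ2 n⟩
  obtain ⟨n, hn⟩ := (graph P hβ0 hβ hp).exists
  obtain ⟨x, hx⟩ := (γ n).2
  exact absurd (hn x) (not_lt.2 hx)

end Vale.Agent.P015.H542b
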