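import Vale.Agent.P015.H542b.WalkLog

/-! # P015: infinite walks and graphs of polynomials -/

open Polynomial Filter

namespace Vale.Agent.P015.H542b

lemma natDegree_comp_neg (P : ℤ[X]) : (P.comp (-X)).natDegree = P.natDegree := by
  rw [natDegree_comp, natDegree_neg, natDegree_X, mul_one]

lemma aeval_comp_neg (P : ℤ[X]) (s : ℝ) : aeval s (P.comp (-X)) = aeval (-s) P := by
  rw [aeval_comp]; simp

lemma eval_comp_neg (P : ℤ[X]) (x : ℤ) : (P.comp (-X)).eval x = P.eval (-x) := by
  rw [eval_comp]; simp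

/-- prime-free discs, both ends of the curve -/
theorem discs {A B : ℤ[X]} (h : 0 < A.natDegree ∨ 0 < B.natDegree) {β : ℝ} (hβ0 : 0 < β)
    (hβ : β < 1 / 2) (N : ℤ) :
    (∃ x : ℤ, N ≤ x ∧ ∀ z : GaussianInt, dist (GaussianInt.toComplex z)
      ⟨((A.eval x : ℤ) : ℝ), ((B.eval x : ℤ) : ℝ)⟩ ≤ Real.log |(x : ℝ)| ^ β → ¬ Prime z) ∧
    (∃ x : ℤ, x ≤ N ∧ ∀ z : GaussianInt, dist (GaussianInt.toComplex z)
      ⟨((A.eval x : ℤ) : ℝ), ((B.eval x : ℤ) : ℝ)⟩ ≤ Real.log |(x : ℝ)| ^ β → ¬ Prime z) := by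
  constructor
  · obtain ⟨x, hx, hz⟩ := barrier_log h hβ0 hβ N
    refine ⟨x, hx, fun z hd => ?_⟩
    rw [Real.log_abs] at hd
    have c1 := (abs_re_sub_le _ _).trans hd
    have c2 := (abs_im_sub_le _ _).trans hd
    simp only at c1 c2
    rw [← GaussianInt.intCast_re] at c1
    rw [← GaussianInt.intCast_im] at c2
    exact hz z c1 c2
  · obtain ⟨x, hx, hz⟩ := barrier_log (A := A.comp (-X)) (B := B.comp (-X))
      (by rwa [natDegree_comp_neg, natDegree_comp_neg]) hβ0 hβ (-N)
    rw [eval_comp_neg, eval_comp_neg] at hz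
    refine ⟨-x, by linarith, fun z hd => ?_⟩
    rw [Real.log_abs, Int.cast_neg, Real.log_neg_eq_log] at hd
    have c1 := (abs_re_sub_le _ _).trans hd
    have c2 := (abs_im_sub_le _ _).trans hd
    simp only at c1 c2
    rw [← GaussianInt.intCast_re] at c1
    rw [← GaussianInt.intCast_im] at c2
    exact hz z c1 c2

/-- an infinite walk does not follow an end of a polynomial curve -/
theorem ends {A B : ℤ[X]} (h : 0 < A.natDegree ∨ 0 < B.natDegree) {D β : ℝ}
    (hβ0 : 0 < β) (hβ : β < 1 / 2)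
    {γ : ℕ → {z : GaussianInt // Prime z}} (hγ : IsInfinitePath D γ) {t : ℕ → ℝ}
    (ht : Tendsto t atTop atTop ∨ Tendsto t atTop atBot) :
    ∃ᶠ n in atTop, Real.log |t n| ^ β <
      dist (GaussianInt.toComplex (γ n).1) ⟨aeval (t n) A, aeval (t n) B⟩ := by
  rw [Filter.Frequently]
  intro hcon
  simp only [not_lt] at hcon
  rcases ht with ht | ht
  · refine no_walk_log h hβ0 hβ hγ ht ?_
    filter_upwards [hcon] with n hn
    rwa [Real.log_abs] at hn
  · refine no_walk_log (A := A.comp (-X)) (B := B.comp (-X))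
      (by rwa [natDegree_comp_neg, natDegree_comp_neg]) hβ0 hβ hγ
      (tendsto_neg_atBot_atTop.comp ht) ?_
    filter_upwards [hcon] with n hn
    rw [Real.log_abs] at hn
    simp only [Function.comp]
    rwa [aeval_comp_neg, aeval_comp_neg, neg_neg, Real.log_neg_eq_log]

lemma norm_tendsto {D : ℝ} {γ : ℕ → {z : GaussianInt // Prime z}} (hγ : IsInfinitePath D γ) :
    Tendsto (fun n => ‖GaussianInt.toComplex (γ n).1‖) atTop atTop := by
  rw [tendsto_atTop]
  intro K
  have hinj : Function.Injective fun n => (γ n).1 := Subtype.val_injective.comp hγ.1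
  have hfin : Set.Finite ((fun n => (γ n).1) ⁻¹' (sq ⌈K⌉ : Set GaussianInt)) :=
    (sq ⌈K⌉).finite_toSet.preimage hinj.injOn
  have h1 := hfin.compl_mem_cofinite
  rw [Nat.cofinite_eq_atTop] at h1
  filter_upwards [h1] with n hn
  by_contra hlt
  push Not at hlt
  apply hn
  simp only [Set.mem_preimage, Finset.mem_coe]
  apply mem_sq
  · have : |((γ n).1.re : ℝ)| ≤ K := by
      rw [GaussianInt.intCast_re]
      exact (Complex.abs_re_le_norm _).trans hlt.le
    exact_mod_cast this.trans (Int.le_ceil K)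
  · have : |((γ n).1.im : ℝ)| ≤ K := by
      rw [GaussianInt.intCast_im]
      exact (Complex.abs_im_le_norm _).trans hlt.le
    exact_mod_cast this.trans (Int.le_ceil K)

lemma upper_real (P : ℤ[X]) : ∃ X₂ : ℝ, ∀ x : ℝ, X₂ ≤ x →
    |aeval x P| ≤ x ^ (P.natDegree + 1) := by
  have hd : (P.map (algebraMap ℤ ℝ)).degree ≤ ((X : ℝ[X]) ^ P.natDegree).degree := by
    rw [degree_map_eq_of_injective (RingHom.injective_int _), degree_X_pow]
    exact degree_le_natDegree
  obtain ⟨C, hC⟩ := (Polynomial.isBigO_atTop_of_degree_le _ _ hd).bound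
  obtain ⟨X₂, hX⟩ := eventually_atTop.1 hC
  refine ⟨max X₂ (|C| + 1), fun x hx => ?_⟩
  have h1 := hX x ((le_max_left _ _).trans hx)
  have h2 : |C| + 1 ≤ (x : ℝ) := (le_max_right _ _).trans hx
  have hx0 : (0 : ℝ) < x := by linarith [abs_nonneg C]
  rw [eval_pow, eval_X, ← eval₂_eq_eval_map, ← aeval_def, Real.norm_eq_abs,
    Real.norm_eq_abs, abs_of_nonneg (a := (x : ℝ) ^ P.natDegree) (by positivity)] at h1
  refine h1.trans ?_
  rw [pow_succ, mul_comm]
  exact mul_le_mul_of_nonneg_left (by linarith [le_abs_self C]) (by positivity)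

lemma upper_abs (P : ℤ[X]) : ∃ X₂ : ℝ, ∀ x : ℝ, X₂ ≤ |x| →
    |aeval x P| ≤ |x| ^ (P.natDegree + 1) := by
  obtain ⟨X₁, h1⟩ := upper_real P
  obtain ⟨X₂, h2⟩ := upper_real (P.comp (-X))
  refine ⟨max X₁ X₂, fun x hx => ?_⟩
  rcases le_total 0 x with h0 | h0
  · rw [abs_of_nonneg h0] at hx ⊢
    exact h1 x ((le_max_left _ _).trans hx)
  · rw [abs_of_nonpos h0] at hx ⊢
    have := h2 (-x) ((le_max_right _ _).trans hx)
    rwa [aeval_comp_neg, neg_neg, natDegree_comp_neg] at this

/-- an infinite walk leaves the neighbourhood of the graph of a polynomial infinitely often -/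
theorem graph (P : ℤ[X]) {D β : ℝ} (hβ0 : 0 < β) (hβ : β < 1 / 2)
    {γ : ℕ → {z : GaussianInt // Prime z}} (hγ : IsInfinitePath D γ) :
    ∃ᶠ n in atTop, ∀ x : ℝ, Real.log ‖GaussianInt.toComplex (γ n).1‖ ^ β <
      dist (GaussianInt.toComplex (γ n).1) ⟨x, aeval x P⟩ := by
  rw [Filter.Frequently]
  intro hcon
  simp only [not_forall, not_lt] at hcon
  obtain ⟨x, hx⟩ := hcon.choice
  have hD : 0 ≤ D := dist_nonneg.trans (hγ.2 0).2
  have hN := norm_tendsto hγ
  obtain ⟨β', hβ'1, hβ'2⟩ := exists_between hβ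
  have hβ'0 : 0 < β' := hβ0.trans hβ'1
  obtain ⟨X₂, hX₂⟩ := upper_abs P
  obtain ⟨Q, hQ⟩ : ∃ Q, Q = P.natDegree + 1 := ⟨_, rfl⟩
  rw [← hQ] at hX₂
  -- logarithmic sizes
  have hhalf : ∀ β : ℝ, 0 < β → β < 1 / 2 → ∀ ε : ℝ, 0 < ε →
      ∀ᶠ s : ℝ in atTop, Real.log s ^ β ≤ ε * s := by
    intro β hβ0 hβ ε hε
    filter_upwards [Real.tendsto_log_atTop.eventually (eventually_ge_atTop 1),
      Real.isLittleO_log_id_atTop.bound hε, eventually_ge_atTop 1] with s hs hs2 hs3
    rw [id, Real.norm_eq_abs, Real.norm_eq_abs, abs_of_nonneg (Real.log_nonneg hs3),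
      abs_of_nonneg (by linarith : (0 : ℝ) ≤ s)] at hs2
    calc Real.log s ^ β ≤ Real.log s ^ (1 : ℝ) :=
          Real.rpow_le_rpow_of_exponent_le hs (by linarith)
      _ = Real.log s := Real.rpow_one _
      _ ≤ _ := hs2
  -- the norm of `γ n` is at most twice the norm of the point of the graph
  have h1 : ∀ᶠ n in atTop, ‖GaussianInt.toComplex (γ n).1‖ ≤ 2 * (|x n| + |aeval (x n) P|) := by
    filter_upwards [hx, hN.eventually (hhalf β hβ0 hβ (1 / 2) (by norm_num))] with n h2 h3
    have h4 : ‖GaussianInt.toComplex (γ n).1‖ ≤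
        dist (GaussianInt.toComplex (γ n).1) ⟨x n, aeval (x n) P⟩ +
          ‖(⟨x n, aeval (x n) P⟩ : ℂ)‖ := by
      have := dist_triangle (GaussianInt.toComplex (γ n).1) (⟨x n, aeval (x n) P⟩ : ℂ) 0
      rwa [dist_zero_right, dist_zero_right] at this
    have h5 := Complex.norm_le_abs_re_add_abs_im (⟨x n, aeval (x n) P⟩ : ℂ)
    simp only at h5
    linarith
  have h2 : Tendsto (fun n => |x n|) atTop atTop := by
    rw [tendsto_atTop]
    intro K
    obtain ⟨L, hL⟩ := (isCompact_Icc (a := -K) (b := K)).exists_bound_of_continuousOn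
      ((P.map (algebraMap ℤ ℝ)).continuous.continuousOn)
    filter_upwards [h1, hN.eventually (eventually_gt_atTop (2 * (K + L)))] with n h3 h4
    by_contra hlt
    push Not at hlt
    have h5 := hL (x n) (Set.mem_Icc.2 (abs_le.1 hlt.le))
    rw [← eval₂_eq_eval_map, ← aeval_def, Real.norm_eq_abs] at h5
    linarith
  have h3 : ∀ᶠ n in atTop, Real.log ‖GaussianInt.toComplex (γ n).1‖ ^ β ≤
      Real.log |x n| ^ β' := by
    have hl : ∀ᶠ s : ℝ in atTop, ((Q : ℝ) + 3) * Real.log s ≤ Real.log s ^ (β' / β) := by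
      have e1 : Tendsto (fun s => Real.log s ^ (β' / β - 1)) atTop atTop :=
        (tendsto_rpow_atTop (by rw [sub_pos, lt_div_iff₀ hβ0]; linarith)).comp
          Real.tendsto_log_atTop
      filter_upwards [e1.eventually (eventually_ge_atTop ((Q : ℝ) + 3)),
        Real.tendsto_log_atTop.eventually (eventually_ge_atTop 1)] with s e2 e3
      have e4 : Real.log s ^ (β' / β) = Real.log s ^ (β' / β - 1) * Real.log s := by
        nth_rewrite 3 [← Real.rpow_one (Real.log s)]
        rw [← Real.rpow_add (by linarith)]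
        congr 1; ring
      rw [e4]
      exact mul_le_mul_of_nonneg_right e2 (by linarith)
    filter_upwards [h1, h2.eventually hl, h2.eventually (eventually_ge_atTop (max X₂ 4)),
      hN.eventually (eventually_ge_atTop 1)] with n e1 e2 e3 e4
    have e5 : X₂ ≤ |x n| := (le_max_left _ _).trans e3
    have e6 : 4 ≤ |x n| := (le_max_right _ _).trans e3
    have e7 := hX₂ (x n) e5
    have e8 : ‖GaussianInt.toComplex (γ n).1‖ ≤ |x n| ^ (Q + 3) := by
      refine e1.trans ?_
      have f1 : |x n| ≤ |x n| ^ (Q + 1) := by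
        calc |x n| = |x n| ^ 1 := (pow_one _).symm
          _ ≤ |x n| ^ (Q + 1) := pow_le_pow_right₀ (by linarith) (by omega)
      have f2 : |x n| ^ Q ≤ |x n| ^ (Q + 1) := pow_le_pow_right₀ (by linarith) (by omega)
      have f3 : |x n| ^ (Q + 3) = |x n| ^ (Q + 1) * |x n| ^ 2 := by rw [← pow_add]
      have f4 : (4 : ℝ) ≤ |x n| ^ 2 := by nlinarith
      have f5 : (0 : ℝ) ≤ |x n| ^ (Q + 1) := by positivity
      rw [f3]
      nlinarith
    have e9 : Real.log ‖GaussianInt.toComplex (γ n).1‖ ≤ ((Q : ℝ) + 3) * Real.log |x n| := by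
      have := Real.log_le_log (by linarith) e8
      rw [Real.log_pow] at this
      push_cast at this
      exact this
    have e10 := Real.rpow_le_rpow (Real.log_nonneg e4) (e9.trans e2) hβ0.le
    rwa [← Real.rpow_mul (Real.log_nonneg (by linarith)), div_mul_cancel₀ _ hβ0.ne'] at e10
  -- the sign of `x n` is eventually constant
  have h4 : ∀ᶠ n in atTop, dist (GaussianInt.toComplex (γ n).1) ⟨x n, aeval (x n) P⟩ ≤
      Real.log |x n| ^ β' := by
    filter_upwards [hx, h3] with n e1 e2 using e1.trans e2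
  obtain ⟨n₁, hn₁⟩ := eventually_atTop.1 (h4.and
    ((h2.eventually (hhalf β' hβ'0 hβ'2 (1 / 4) (by norm_num))).and
      (h2.eventually (eventually_ge_atTop (4 * D + 1)))))
  have hsign : ∀ n, n₁ ≤ n → 0 < x n * x (n + 1) := by
    intro n hn
    obtain ⟨a1, a2, a3⟩ := hn₁ n hn
    obtain ⟨b1, b2, b3⟩ := hn₁ (n + 1) (by omega)
    have d3 := (hγ.2 n).2
    have d4 : dist (⟨x (n + 1), aeval (x (n + 1)) P⟩ : ℂ) ⟨x n, aeval (x n) P⟩ ≤
        D + Real.log |x n| ^ β' + Real.log |x (n + 1)| ^ β' := by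
      have e1 := dist_triangle (⟨x (n + 1), aeval (x (n + 1)) P⟩ : ℂ)
        (GaussianInt.toComplex (γ (n + 1)).1) ⟨x n, aeval (x n) P⟩
      have e2 := dist_triangle (GaussianInt.toComplex (γ (n + 1)).1)
        (GaussianInt.toComplex (γ n).1) (⟨x n, aeval (x n) P⟩ : ℂ)
      rw [dist_comm] at b1 d3
      linarith
    have e1 := (abs_re_sub_le _ _).trans d4
    simp only at e1
    by_contra hcon
    push Not at hcon
    have e2 : |x n| + |x (n + 1)| ≤ |x (n + 1) - x n| := by
      rcases le_total 0 (x n) with g1 | g1 <;> rcases le_total 0 (x (n + 1)) with g2 | g2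
      · have : x n = 0 ∨ x (n + 1) = 0 := by
          rcases eq_or_lt_of_le g1 with g3 | g3
          · exact Or.inl g3.symm
          · right; nlinarith
        exfalso
        rcases this with g3 | g3
        · rw [g3, abs_zero] at a3; linarith
        · rw [g3, abs_zero] at b3; linarith
      · rw [abs_of_nonneg g1, abs_of_nonpos g2, abs_of_nonpos (by linarith)]; linarith
      · rw [abs_of_nonpos g1, abs_of_nonneg g2, abs_of_nonneg (by linarith)]; linarith
      · exfalso
        have : x n = 0 ∨ x (n + 1) = 0 := by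
          rcases eq_or_lt_of_le g1 with g3 | g3
          · exact Or.inl g3
          · right; nlinarith
        rcases this with g3 | g3
        · rw [g3, abs_zero] at a3; linarith
        · rw [g3, abs_zero] at b3; linarith
    linarith
  rcases lt_or_ge 0 (x n₁) with hpos | hneg
  · have hall : ∀ n, n₁ ≤ n → 0 < x n := by
      intro n hn
      induction n, hn using Nat.le_induction with
      | base => exact hpos
      | succ n hn ih => exact (pos_iff_pos_of_mul_pos (hsign n hn)).1 ih
    have ht : Tendsto x atTop atTop := by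
      refine h2.congr' ?_
      filter_upwards [eventually_ge_atTop n₁] with n hn using abs_of_pos (hall n hn)
    refine no_walk_log (A := X) (B := P) (Or.inl (by rw [natDegree_X]; norm_num)) hβ'0 hβ'2 hγ ht ?_
    filter_upwards [h4] with n hn
    rw [Real.log_abs] at hn
    rwa [aeval_X]
  · have hne : x n₁ < 0 := by
      refine lt_of_le_of_ne hneg fun h0 => ?_
      have := (hn₁ n₁ le_rfl).2.2
      rw [h0, abs_zero] at this
      linarith
    have hall : ∀ n, n₁ ≤ n → x n < 0 := by
      intro n hn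
      induction n, hn using Nat.le_induction with
      | base => exact hne
      | succ n hn ih =>
        have := hsign n hn
        by_contra hcon
        push Not at hcon
        nlinarith
    have ht : Tendsto (fun n => -x n) atTop atTop := by
      refine h2.congr' ?_
      filter_upwards [eventually_ge_atTop n₁] with n hn using abs_of_neg (hall n hn)
    refine no_walk_log (A := (X : ℤ[X]).comp (-X)) (B := P.comp (-X))
      (Or.inl (by rw [natDegree_comp_neg, natDegree_X]; norm_num)) hβ'0 hβ'2 hγ ht ?_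
    filter_upwards [h4] with n hn
    rw [Real.log_abs] at hn
    rwa [aeval_comp_neg, aeval_comp_neg, neg_neg, aeval_X, Real.log_neg_eq_log]

end Vale.Agent.P015.H542b
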