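import Mathlib

/-! # P015: polynomial curves, monotone level function -/

open Polynomial Filter Asymptotics

namespace Vale.Agent.P015.H542b

/-- If `|P'| ≤ C g'` for large arguments then `|P t - P s| ≤ C |g t - g s|`. -/
lemma incr_bound {P g : ℝ[X]} {C T : ℝ} (hC : 0 ≤ C) (h : ∀ t, T ≤ t → |P.derivative.eval t| ≤
    C * g.derivative.eval t) {s t : ℝ} (hs : T ≤ s) (ht : T ≤ t) :
    |P.eval t - P.eval s| ≤ C * |g.eval t - g.eval s| := by
  have mono : ∀ Q : ℝ[X], (∀ t, T ≤ t → 0 ≤ Q.derivative.eval t) →
      MonotoneOn (fun t => Q.eval t) (Set.Ici T) := by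
    intro Q hQ
    apply monotoneOn_of_deriv_nonneg (convex_Ici T) Q.continuous.continuousOn
    · exact Q.differentiable.differentiableOn
    · intro x hx
      rw [interior_Ici] at hx
      rw [Polynomial.deriv]
      exact hQ x (le_of_lt hx)
  have m1 := mono (Polynomial.C C * g - P) (by
    intro x hx
    have := (abs_le.1 (h x hx)).2
    simp only [derivative_sub, derivative_mul, derivative_C, zero_mul, zero_add, eval_sub,
      eval_mul, eval_C]
    linarith)
  have m2 := mono (Polynomial.C C * g + P) (by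
    intro x hx
    have := (abs_le.1 (h x hx)).1
    simp only [derivative_add, derivative_mul, derivative_C, zero_mul, zero_add, eval_add,
      eval_mul, eval_C]
    linarith)
  have key : ∀ s t : ℝ, T ≤ s → s ≤ t → |P.eval t - P.eval s| ≤ C * |g.eval t - g.eval s| := by
    intro s t hs hst
    have a1 := m1 (Set.mem_Ici.2 hs) (Set.mem_Ici.2 (hs.trans hst)) hst
    have a2 := m2 (Set.mem_Ici.2 hs) (Set.mem_Ici.2 (hs.trans hst)) hst
    simp only [eval_sub, eval_add, eval_mul, eval_C] at a1 a2
    have h1 := mul_le_mul_of_nonneg_left (le_abs_self (g.eval t - g.eval s)) hC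
    rw [abs_le]
    constructor <;> linarith
  rcases le_total s t with hst | hst
  · exact key s t hs hst
  · have := key t s ht hst
    rwa [abs_sub_comm, abs_sub_comm (g.eval t)] 

/-- The level function of a polynomial curve. -/
lemma level (A B : ℝ[X]) (h : 0 < A.natDegree ∨ 0 < B.natDegree) :
    ∃ (a b C T : ℝ), 0 ≤ C ∧
      Tendsto (fun t => a * A.eval t + b * B.eval t) atTop atTop ∧
      StrictMonoOn (fun t => a * A.eval t + b * B.eval t) (Set.Ici T) ∧
      ∀ s t, T ≤ s → T ≤ t →
        |A.eval t - A.eval s| ≤ C * |(a * A.eval t + b * B.eval t) - (a * A.eval s + b * B.eval s)| ∧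
        |B.eval t - B.eval s| ≤ C * |(a * A.eval t + b * B.eval t) - (a * A.eval s + b * B.eval s)| ∧
        |t - s| ≤ C * |(a * A.eval t + b * B.eval t) - (a * A.eval s + b * B.eval s)| := by
  obtain ⟨q, hq⟩ : ∃ q, q = max A.natDegree B.natDegree := ⟨_, rfl⟩
  obtain ⟨a, ha⟩ : ∃ a, a = A.coeff q := ⟨_, rfl⟩
  obtain ⟨b, hb⟩ : ∃ b, b = B.coeff q := ⟨_, rfl⟩
  obtain ⟨g, hg⟩ : ∃ g, g = Polynomial.C a * A + Polynomial.C b * B := ⟨_, rfl⟩
  have hAq : A.natDegree ≤ q := hq ▸ le_max_left _ _
  have hBq : B.natDegree ≤ q := hq ▸ le_max_right _ _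
  have hq0 : 0 < q := by rcases h with h | h <;> omega
  have hcoef : g.coeff q = a ^ 2 + b ^ 2 := by
    rw [hg, coeff_add, coeff_C_mul, coeff_C_mul, ← ha, ← hb]; ring
  have hpos : 0 < a ^ 2 + b ^ 2 := by
    rcases le_total B.natDegree A.natDegree with h1 | h1
    · have h2 : q = A.natDegree := by rw [hq]; exact max_eq_left h1
      have h3 : a ≠ 0 := by
        rw [ha, h2]
        apply leadingCoeff_ne_zero.2
        rintro rfl
        simp at h2; omega
      positivity
    · have h2 : q = B.natDegree := by rw [hq]; exact max_eq_right h1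
      have h3 : b ≠ 0 := by
        rw [hb, h2]
        apply leadingCoeff_ne_zero.2
        rintro rfl
        simp at h2; omega
      positivity
  have hgle : g.natDegree ≤ q := by
    rw [hg]
    refine (natDegree_add_le _ _).trans (max_le ?_ ?_)
    · exact (natDegree_C_mul_le _ _).trans hAq
    · exact (natDegree_C_mul_le _ _).trans hBq
  have hgd : g.natDegree = q := le_antisymm hgle (le_natDegree_of_ne_zero (by rw [hcoef]; exact hpos.ne'))
  have hglead : 0 < g.leadingCoeff := by
    rw [leadingCoeff, hgd, hcoef]; exact hpos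
  have hgdeg : 0 < g.degree := natDegree_pos_iff_degree_pos.1 (by rw [hgd]; exact hq0)
  have heval : ∀ t, g.eval t = a * A.eval t + b * B.eval t := by
    intro t; rw [hg]; simp
  have htend : Tendsto (fun t => g.eval t) atTop atTop :=
    Polynomial.tendsto_atTop_of_leadingCoeff_nonneg g hgdeg hglead.le
  -- derivative
  have hg'coef : g.derivative.coeff (q - 1) = (a ^ 2 + b ^ 2) * q := by
    rw [coeff_derivative]
    have : q - 1 + 1 = q := by omega
    rw [this, hcoef]
    have h2 : ((q - 1 : ℕ) : ℝ) + 1 = q := by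
      rw [Nat.cast_sub hq0]; push_cast; ring
    rw [h2]
  have hqr : (0 : ℝ) < q := by exact_mod_cast hq0
  have hg'd : g.derivative.natDegree = q - 1 := by
    apply le_antisymm
    · exact (natDegree_derivative_le g).trans (by rw [hgd])
    · apply le_natDegree_of_ne_zero
      rw [hg'coef]; positivity
  have hg'lead : 0 < g.derivative.leadingCoeff := by
    rw [leadingCoeff, hg'd, hg'coef]; positivity
  have hg'ne : g.derivative ≠ 0 := leadingCoeff_ne_zero.1 hg'lead.ne'
  have hg'pos : ∀ᶠ t in atTop, 0 < g.derivative.eval t := by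
    rcases Nat.eq_zero_or_pos (q - 1) with h0 | h0
    · have h1 : g.derivative = Polynomial.C (g.derivative.leadingCoeff) := by
        conv_lhs => rw [eq_C_of_natDegree_eq_zero (hg'd.trans h0)]
        rw [leadingCoeff, hg'd, h0]
      filter_upwards with t
      rw [h1, eval_C]; exact hg'lead
    · exact (Polynomial.tendsto_atTop_of_leadingCoeff_nonneg _
        (natDegree_pos_iff_degree_pos.1 (by rw [hg'd]; exact h0)) hg'lead.le).eventually
        (eventually_gt_atTop 0)
  have hO : ∀ P : ℝ[X], P.natDegree ≤ q → ∃ C, 0 ≤ C ∧ ∀ᶠ t in atTop,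
      |P.derivative.eval t| ≤ C * g.derivative.eval t := by
    intro P hP
    have h1 : P.derivative.degree ≤ g.derivative.degree := by
      rw [degree_eq_natDegree hg'ne, hg'd]
      refine degree_le_of_natDegree_le ((natDegree_derivative_le P).trans (by omega))
    obtain ⟨C, hC⟩ := (Polynomial.isBigO_atTop_of_degree_le _ _ h1).bound
    refine ⟨|C|, abs_nonneg _, ?_⟩
    filter_upwards [hC, hg'pos] with t h2 h3
    rw [Real.norm_eq_abs, Real.norm_eq_abs, abs_of_pos h3] at h2
    exact h2.trans (mul_le_mul_of_nonneg_right (le_abs_self C) h3.le)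
  obtain ⟨C1, hC1, h1⟩ := hO A hAq
  obtain ⟨C2, hC2, h2⟩ := hO B hBq
  obtain ⟨C3, hC3, h3⟩ := hO X (by rw [natDegree_X]; exact hq0)
  obtain ⟨T, hT⟩ := eventually_atTop.1 (h1.and (h2.and (hg'pos.and h3)))
  refine ⟨a, b, max (max C1 C2) C3, T, le_max_of_le_right hC3, ?_, ?_, ?_⟩
  · simp_rw [← heval]; exact htend
  · simp_rw [← heval]
    apply strictMonoOn_of_deriv_pos (convex_Ici T) g.continuous.continuousOn
    intro x hx
    rw [interior_Ici] at hx
    rw [Polynomial.deriv]
    exact (hT x (le_of_lt hx)).2.2.1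
  · intro s t hs ht
    simp_rw [← heval]
    have e1 := incr_bound hC1 (fun t ht => (hT t ht).1) hs ht
    have e2 := incr_bound hC2 (fun t ht => (hT t ht).2.1) hs ht
    have e3 := incr_bound hC3 (fun t ht => (hT t ht).2.2.2) hs ht
    rw [eval_X, eval_X] at e3
    exact ⟨e1.trans (mul_le_mul_of_nonneg_right ((le_max_left _ _).trans (le_max_left _ _))
        (abs_nonneg _)),
      e2.trans (mul_le_mul_of_nonneg_right ((le_max_right _ _).trans (le_max_left _ _))
        (abs_nonneg _)),
      e3.trans (mul_le_mul_of_nonneg_right (le_max_right _ _) (abs_nonneg _))⟩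

end Vale.Agent.P015.H542b
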