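import Vale.Agent.P015.H542b.Walk

/-! # P015: large prime-free discs on polynomial curves -/

open Polynomial Filter

namespace Vale.Agent.P015.H542b

lemma card_sq (r : ℕ) : (sq (r : ℤ)).card ≤ (2 * r + 1) ^ 2 := by
  unfold sq
  refine Finset.card_image_le.trans ?_
  rw [Finset.card_product, Int.card_Icc, pow_two]
  have : ((r : ℤ) + 1 - -(r : ℤ)).toNat = 2 * r + 1 := by omega
  rw [this]

lemma of_mem_sq {R : ℤ} {d : GaussianInt} (hd : d ∈ sq R) : |d.re| ≤ R ∧ |d.im| ≤ R := by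
  unfold sq at hd
  rw [Finset.mem_image] at hd
  obtain ⟨p, hp, rfl⟩ := hd
  rw [Finset.mem_product, Finset.mem_Icc, Finset.mem_Icc] at hp
  exact ⟨abs_le.2 hp.1, abs_le.2 hp.2⟩

lemma norm_eq (A B : ℤ[X]) (x : ℤ) (d : GaussianInt) : Zsqrtd.norm (pt A B x + d) =
    (A.eval x + d.re) ^ 2 + (B.eval x + d.im) ^ 2 := by
  simp only [Zsqrtd.norm, pt, Zsqrtd.re_add, Zsqrtd.im_add]
  ring

lemma lower_one {P : ℤ[X]} (hP : 0 < P.natDegree) : ∃ C X₁ : ℝ, 0 < C ∧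
    ∀ x : ℤ, X₁ ≤ x → (x : ℝ) ≤ C * |((P.eval x : ℤ) : ℝ)| := by
  have hd : (X : ℝ[X]).degree ≤ (P.map (algebraMap ℤ ℝ)).degree := by
    rw [degree_X, degree_map_eq_of_injective (RingHom.injective_int _)]
    have := natDegree_pos_iff_degree_pos.1 hP
    exact Nat.WithBot.one_le_iff_zero_lt.2 this
  obtain ⟨C, hC⟩ := (Polynomial.isBigO_atTop_of_degree_le _ _ hd).bound
  obtain ⟨X₁, hX⟩ := eventually_atTop.1 hC
  refine ⟨|C| + 1, X₁, by positivity, fun x hx => ?_⟩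
  have h1 := hX x hx
  rw [eval_X, ← eval₂_eq_eval_map, ← aeval_def, aeval_int, Real.norm_eq_abs, Real.norm_eq_abs] at h1
  refine (le_abs_self _).trans (h1.trans ?_)
  have := abs_nonneg ((P.eval x : ℤ) : ℝ)
  nlinarith [le_abs_self C]

lemma lower {A B : ℤ[X]} (h : 0 < A.natDegree ∨ 0 < B.natDegree) : ∃ C X₁ : ℝ, 0 < C ∧
    ∀ (x : ℤ) (r m : ℤ) (d : GaussianInt), X₁ ≤ x → d ∈ sq r → 0 ≤ m →
      C * (r + m) ≤ x → m ^ 2 ≤ Zsqrtd.norm (pt A B x + d) := by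
  have key : ∀ (u v r m : ℤ) (x C : ℝ), 0 < C → x ≤ C * |(u : ℝ)| → |v| ≤ r → 0 ≤ m →
      C * (r + m) ≤ x → m ^ 2 ≤ (u + v) ^ 2 := by
    intro u v r m x C hC hx hv hm hr
    have h1 : C * ((r : ℝ) + m) ≤ C * |(u : ℝ)| := hr.trans hx
    have h2 := le_of_mul_le_mul_left h1 hC
    have h3 : r + m ≤ |u| := by exact_mod_cast h2
    have h4 : m ≤ |u + v| := by
      have := abs_sub_abs_le_abs_sub u (-v)
      rw [abs_neg, sub_neg_eq_add] at this
      linarith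
    rw [← sq_abs (u + v)]
    exact pow_le_pow_left₀ hm h4 2
  rcases h with h | h
  · obtain ⟨C, X₁, hC, hx⟩ := lower_one h
    refine ⟨C, X₁, hC, fun x r m d hX hd hm hr => ?_⟩
    rw [norm_eq]
    have := key _ _ _ _ _ _ hC (hx x hX) (of_mem_sq hd).1 hm hr
    exact this.trans (le_add_of_nonneg_right (sq_nonneg _))
  · obtain ⟨C, X₁, hC, hx⟩ := lower_one h
    refine ⟨C, X₁, hC, fun x r m d hX hd hm hr => ?_⟩
    rw [norm_eq]
    have := key _ _ _ _ _ _ hC (hx x hX) (of_mem_sq hd).2 hm hr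
    exact this.trans (le_add_of_nonneg_left (sq_nonneg _))

lemma upper_one (P : ℤ[X]) : ∃ X₂ : ℝ, ∀ x : ℤ, X₂ ≤ x →
    |P.eval x| ≤ x ^ (P.natDegree + 1) := by
  have hd : (P.map (algebraMap ℤ ℝ)).degree ≤ ((X : ℝ[X]) ^ P.natDegree).degree := by
    rw [degree_map_eq_of_injective (RingHom.injective_int _), degree_X_pow]
    exact degree_le_natDegree
  obtain ⟨C, hC⟩ := (Polynomial.isBigO_atTop_of_degree_le _ _ hd).bound
  obtain ⟨X₂, hX⟩ := eventually_atTop.1 hC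
  refine ⟨max X₂ (|C| + 1), fun x hx => ?_⟩
  have h1 := hX x ((le_max_left _ _).trans hx)
  have h2 : |C| + 1 ≤ (x : ℝ) := (le_max_right _ _).trans hx
  have hx0 : (0 : ℝ) < x := by linarith [abs_nonneg C]
  rw [eval_pow, eval_X, ← eval₂_eq_eval_map, ← aeval_def, aeval_int, Real.norm_eq_abs,
    Real.norm_eq_abs, abs_of_nonneg (a := (x : ℝ) ^ P.natDegree) (by positivity)] at h1
  have h3 : |((P.eval x : ℤ) : ℝ)| ≤ (x : ℝ) ^ (P.natDegree + 1) := by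
    refine h1.trans ?_
    rw [pow_succ, mul_comm]
    exact mul_le_mul_of_nonneg_left (by linarith [le_abs_self C]) (by positivity)
  exact_mod_cast h3

lemma upper (A B : ℤ[X]) : ∃ (Q : ℕ) (X₂ : ℝ), ∀ x r : ℤ, ∀ d ∈ sq r, X₂ ≤ x → r ≤ x →
    Zsqrtd.norm (pt A B x + d) ≤ x ^ Q := by
  obtain ⟨X₂, h2⟩ := upper_one A
  obtain ⟨X₃, h3⟩ := upper_one B
  obtain ⟨q, hq⟩ : ∃ q, q = max A.natDegree B.natDegree + 1 := ⟨_, rfl⟩
  refine ⟨2 * q + 5, max 2 (max X₂ X₃), fun x r d hd hx hr => ?_⟩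
  have hx2 : (2 : ℝ) ≤ x := (le_max_left _ _).trans hx
  have hx2' : (2 : ℤ) ≤ x := by exact_mod_cast hx2
  have a1 := h2 x ((le_max_left _ _).trans ((le_max_right _ _).trans hx))
  have a2 := h3 x ((le_max_right _ _).trans ((le_max_right _ _).trans hx))
  have b1 : |A.eval x| ≤ x ^ q := a1.trans (pow_le_pow_right₀ (by linarith) (by
    rw [hq]; exact Nat.add_le_add_right (le_max_left _ _) 1))
  have b2 : |B.eval x| ≤ x ^ q := a2.trans (pow_le_pow_right₀ (by linarith) (by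
    rw [hq]; exact Nat.add_le_add_right (le_max_right _ _) 1))
  have hxq : x ≤ x ^ q := by
    calc x = x ^ 1 := (pow_one x).symm
      _ ≤ x ^ q := pow_le_pow_right₀ (by linarith) (by omega)
  have hq0 : 0 ≤ x ^ q := by positivity
  have key : ∀ u v : ℤ, |u| ≤ x ^ q → |v| ≤ r → (u + v) ^ 2 ≤ (2 * x ^ q) ^ 2 := by
    intro u v hu hv
    rw [← sq_abs (u + v)]
    apply pow_le_pow_left₀ (abs_nonneg _)
    have := abs_add_le u v
    linarith
  have c1 := key _ _ b1 (of_mem_sq hd).1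
  have c2 := key _ _ b2 (of_mem_sq hd).2
  rw [norm_eq]
  have e : x ^ (2 * q + 5) = (x ^ q) ^ 2 * x ^ 5 := by rw [pow_add, pow_mul', ]
  rw [e]
  have h5 : (8 : ℤ) ≤ x ^ 5 := by
    calc (8 : ℤ) ≤ 2 ^ 5 := by norm_num
      _ ≤ x ^ 5 := pow_le_pow_left₀ (by norm_num) hx2' 5
  have h6 := mul_le_mul_of_nonneg_left h5 (sq_nonneg (x ^ q))
  nlinarith

/-- **Large prime-free discs** with centre on the curve `A(x) + i B(x)`. -/
theorem barrier_log {A B : ℤ[X]} (h : 0 < A.natDegree ∨ 0 < B.natDegree) {β : ℝ} (hβ0 : 0 < β)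
    (hβ : β < 1 / 2) (N : ℤ) : ∃ x : ℤ, N ≤ x ∧ ∀ z : GaussianInt,
      |(z.re : ℝ) - ((A.eval x : ℤ) : ℝ)| ≤ Real.log x ^ β →
      |(z.im : ℝ) - ((B.eval x : ℤ) : ℝ)| ≤ Real.log x ^ β → ¬ Prime z := by
  obtain ⟨C, X₁, hC, hlow⟩ := lower h
  obtain ⟨Q, X₂, hup⟩ := upper A B
  obtain ⟨K, hK⟩ : ∃ K : ℝ, K = 18 * Q + 3 := ⟨_, rfl⟩
  have hK0 : 0 < K := by rw [hK]; positivity
  -- the analytic condition
  have hδ : 0 < 1 / β - 2 := by
    rw [sub_pos, lt_div_iff₀ hβ0]; linarith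
  have hlog : ∀ᶠ r : ℕ in atTop, K * (r : ℝ) ^ 2 * Real.log r ≤ (r : ℝ) ^ (1 / β) := by
    have h1 := (isLittleO_log_rpow_atTop hδ).bound (show (0 : ℝ) < 1 / K by positivity)
    have h2 := tendsto_natCast_atTop_atTop (R := ℝ) |>.eventually
      (h1.and (eventually_ge_atTop (1 : ℝ)))
    filter_upwards [h2] with r hr
    obtain ⟨h3, h4⟩ := hr
    have h5 : 0 ≤ Real.log r := Real.log_nonneg h4
    have hr0 : (0 : ℝ) < r := by linarith
    rw [Real.norm_eq_abs, abs_of_nonneg h5, Real.norm_eq_abs,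
      abs_of_nonneg (by positivity)] at h3
    have h6 : K * Real.log r ≤ (r : ℝ) ^ (1 / β - 2) := by
      have := mul_le_mul_of_nonneg_left h3 hK0.le
      rwa [← mul_assoc, mul_one_div_cancel hK0.ne', one_mul] at this
    calc K * (r : ℝ) ^ 2 * Real.log r = (r : ℝ) ^ (2 : ℝ) * (K * Real.log r) := by
          rw [Real.rpow_two]; ring
      _ ≤ (r : ℝ) ^ (2 : ℝ) * (r : ℝ) ^ (1 / β - 2) :=
          mul_le_mul_of_nonneg_left h6 (by positivity)
      _ = (r : ℝ) ^ (1 / β) := by rw [← Real.rpow_add hr0]; congr 1; ring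
  have hsq : Tendsto (fun r : ℕ => (r : ℝ) ^ 2) atTop atTop :=
    (tendsto_pow_atTop two_ne_zero).comp tendsto_natCast_atTop_atTop
  have hCr : ∀ᶠ r : ℕ in atTop, C * ((r : ℝ) + 2) ≤ (r : ℝ) ^ 2 := by
    filter_upwards [tendsto_natCast_atTop_atTop (R := ℝ) |>.eventually
      (eventually_ge_atTop (2 * C + 2))] with r hr
    nlinarith
  obtain ⟨r, hr1, hr2, hr3, hr4, hr5, hr6⟩ := (hlog.and (hCr.and
    ((hsq.eventually (eventually_ge_atTop X₁)).and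
    ((hsq.eventually (eventually_ge_atTop X₂)).and
    ((hsq.eventually (eventually_ge_atTop (N : ℝ))).and
    (eventually_ge_atTop 2)))))).exists
  obtain ⟨R, hR⟩ : ∃ R : ℤ, R = (r : ℤ) := ⟨_, rfl⟩
  have hR2 : 2 ≤ R := by rw [hR]; exact_mod_cast hr6
  have hRr : (R : ℝ) = r := by rw [hR]; push_cast; rfl
  obtain ⟨x₀, hx₀⟩ : ∃ x₀ : ℤ, x₀ = R ^ 2 := ⟨_, rfl⟩
  have hx₀r : (x₀ : ℝ) = (r : ℝ) ^ 2 := by rw [hx₀]; push_cast; rw [hRr]
  have hlow' := fun (x m : ℤ) (d : GaussianInt) (hx : x₀ ≤ x) (hd : d ∈ sq R) (hm : 0 ≤ m)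
    (hm' : C * (R + m) ≤ x) => hlow x R m d
      (by have : (x₀ : ℝ) ≤ x := by exact_mod_cast hx
          rw [hx₀r] at this; linarith) hd hm hm'
  -- the norms at `x₀`
  have hnlo : ∀ d ∈ sq R, 4 ≤ Zsqrtd.norm (pt A B x₀ + d) := by
    intro d hd
    have := hlow' x₀ 2 d le_rfl hd (by norm_num) (by rw [hx₀r, hRr]; push_cast; exact hr2)
    simpa using this
  have hnup : ∀ d ∈ sq R, Zsqrtd.norm (pt A B x₀ + d) ≤ x₀ ^ Q := by
    intro d hd
    refine hup x₀ R d hd (by rw [hx₀r]; exact hr4) ?_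
    rw [hx₀]; nlinarith
  obtain ⟨M, hM⟩ : ∃ M : ℤ, M = ∏ d ∈ sq R, Zsqrtd.norm (pt A B x₀ + d) := ⟨_, rfl⟩
  have hM1 : 1 ≤ M := by
    have : 0 < M := by
      rw [hM]
      exact Finset.prod_pos fun d hd => lt_of_lt_of_le (by norm_num) (hnlo d hd)
    exact Int.add_one_le_iff.2 this
  have hdvd : ∀ d ∈ sq R, Zsqrtd.norm (pt A B x₀ + d) ∣ M := fun d hd => by
    rw [hM]; exact Finset.dvd_prod_of_mem _ hd
  obtain ⟨x, hx⟩ : ∃ x : ℤ, x = x₀ + M * R ^ 2 := ⟨_, rfl⟩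
  have hR0 : 0 ≤ R := by linarith
  have hxx₀ : x₀ ≤ x := by rw [hx]; exact le_add_of_nonneg_right (by positivity)
  have hNx₀ : N ≤ x₀ := by
    have : (N : ℝ) ≤ (x₀ : ℝ) := by rw [hx₀r]; exact hr5
    exact_mod_cast this
  have hCR : C * ((R : ℝ) + 2 * M) ≤ x := by
    have h1 : (1 : ℝ) ≤ M := by exact_mod_cast hM1
    have h2 : (R : ℝ) + 2 * M ≤ M * (R + 2) := by
      have : (0 : ℝ) ≤ R := by exact_mod_cast hR0
      nlinarith
    have h3 : C * ((R : ℝ) + 2 * M) ≤ C * (M * (R + 2)) := mul_le_mul_of_nonneg_left h2 hC.le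
    have h4 : C * (M * ((R : ℝ) + 2)) = M * (C * (r + 2)) := by rw [hRr]; ring
    have h5 : (M : ℝ) * (C * (r + 2)) ≤ M * (r : ℝ) ^ 2 :=
      mul_le_mul_of_nonneg_left hr2 (by linarith)
    have h6 : (x : ℝ) = (x₀ : ℝ) + M * (r : ℝ) ^ 2 := by rw [hx]; push_cast; rw [hRr]
    rw [h6]
    have h7 : (0 : ℝ) ≤ x₀ := by rw [hx₀r]; positivity
    linarith
  have hnp : ∀ d ∈ sq R, ¬ Prime (pt A B x + d) := by
    intro d hd
    obtain ⟨e, he⟩ := hdvd d hd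
    have h4 := hnlo d hd
    refine not_prime_of (c := pt A B x₀ + d) (M := M) ?_ (by linarith)
      (Int.le_of_dvd (by linarith) (hdvd d hd)) ?_
    · have h1 := pt_dvd A B x₀ (e * R ^ 2) (pt A B x₀ + d) d dvd_rfl
      have e1 : x = x₀ + Zsqrtd.norm (pt A B x₀ + d) * (e * R ^ 2) := by
        rw [hx]
        nth_rewrite 1 [he]
        ring
      rw [e1]; exact h1
    · have h1 := hlow' x (2 * M) d hxx₀ hd (by positivity) (by push_cast; exact hCR)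
      refine lt_of_lt_of_le ?_ h1
      nlinarith
  -- size of `x`
  have hr2' : (2 : ℝ) ≤ r := by exact_mod_cast hr6
  have hr1' : (1 : ℝ) ≤ r := by linarith
  have hMle : (M : ℝ) ≤ (r : ℝ) ^ (2 * Q * (2 * r + 1) ^ 2) := by
    have h1 : M ≤ (x₀ ^ Q) ^ (sq R).card := by
      rw [hM, ← Finset.prod_const]
      exact Finset.prod_le_prod (fun d hd => le_trans (by norm_num) (hnlo d hd)) hnup
    have h2 : (M : ℝ) ≤ ((x₀ : ℝ) ^ Q) ^ (sq R).card := by exact_mod_cast h1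
    refine h2.trans ?_
    rw [hx₀r, ← pow_mul, ← pow_mul]
    apply pow_le_pow_right₀ hr1'
    have := card_sq r
    rw [← hR] at this
    rw [← mul_assoc]
    exact Nat.mul_le_mul_left _ this
  have hx0' : (0 : ℝ) < x := by
    have h1 : (4 : ℤ) ≤ x₀ := by rw [hx₀]; nlinarith
    have h2 : (4 : ℤ) ≤ x := h1.trans hxx₀
    exact_mod_cast lt_of_lt_of_le (by norm_num) h2
  have hx1' : (1 : ℝ) ≤ x := by exact_mod_cast hx0'
  have hxle : (x : ℝ) ≤ (r : ℝ) ^ (2 * Q * (2 * r + 1) ^ 2 + 3) := by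
    have h6 : (x : ℝ) = (r : ℝ) ^ 2 + M * (r : ℝ) ^ 2 := by
      rw [hx]; push_cast; rw [hRr, hx₀r]
    have h1 : (1 : ℝ) ≤ M := by exact_mod_cast hM1
    have h7 : (x : ℝ) ≤ M * (r : ℝ) ^ 3 := by
      rw [h6]
      have h8 : (r : ℝ) ^ 2 ≤ M * (r : ℝ) ^ 2 := le_mul_of_one_le_left (by positivity) h1
      have h9 : M * (r : ℝ) ^ 3 = M * (r : ℝ) ^ 2 * r := by ring
      rw [h9]
      have h10 : (0 : ℝ) ≤ M * (r : ℝ) ^ 2 := by positivity
      nlinarith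
    rw [pow_add]
    exact h7.trans (mul_le_mul_of_nonneg_right hMle (by positivity))
  have hlr : 0 ≤ Real.log r := Real.log_nonneg hr1'
  have hlogx : Real.log x ≤ K * (r : ℝ) ^ 2 * Real.log r := by
    have h1 := Real.log_le_log hx0' hxle
    rw [Real.log_pow] at h1
    refine h1.trans (mul_le_mul_of_nonneg_right ?_ hlr)
    push_cast
    rw [hK]
    have hQ : (0 : ℝ) ≤ Q := Nat.cast_nonneg _
    have h2 : (2 * (r : ℝ) + 1) ^ 2 ≤ 9 * (r : ℝ) ^ 2 := by nlinarith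
    have h3 : 2 * (Q : ℝ) * (2 * (r : ℝ) + 1) ^ 2 ≤ 2 * (Q : ℝ) * (9 * (r : ℝ) ^ 2) :=
      mul_le_mul_of_nonneg_left h2 (by positivity)
    have h4 : (1 : ℝ) ≤ (r : ℝ) ^ 2 := one_le_pow₀ hr1'
    nlinarith
  have hfin : Real.log x ^ β ≤ r := by
    have h1 : Real.log x ≤ (r : ℝ) ^ (1 / β) := hlogx.trans hr1
    have h2 := Real.rpow_le_rpow (Real.log_nonneg hx1') h1 hβ0.le
    rwa [← Real.rpow_mul (by linarith), one_div_mul_cancel hβ0.ne', Real.rpow_one] at h2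
  refine ⟨x, hNx₀.trans hxx₀, fun z h1 h2 hp => ?_⟩
  refine hnp (z - pt A B x) (mem_sq ?_ ?_) ?_
  · have h3 := h1.trans hfin
    have h4 : |((z - pt A B x).re : ℝ)| ≤ R := by
      rw [hRr]
      simpa [pt, Zsqrtd.re_sub] using h3
    exact_mod_cast h4
  · have h3 := h2.trans hfin
    have h4 : |((z - pt A B x).im : ℝ)| ≤ R := by
      rw [hRr]
      simpa [pt, Zsqrtd.im_sub] using h3
    exact_mod_cast h4
  · have e : pt A B x + (z - pt A B x) = z := by ring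
    rw [e]; exact hp

end Vale.Agent.P015.H542b
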