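import Vale.Agent.P015.H542b.Barrier
import Vale.Agent.P015.H542b.Mono
import Vale.Agent.P015.Cx.Defs

/-! # P015: no infinite walk along a polynomial curve -/

open Polynomial Filter

namespace Vale.Agent.P015.H542b

/-- the finite square of translates -/
noncomputable def sq (R : ℤ) : Finset GaussianInt :=
  (Finset.Icc (-R) R ×ˢ Finset.Icc (-R) R).image fun p => (⟨p.1, p.2⟩ : GaussianInt)

lemma mem_sq {R : ℤ} {d : GaussianInt} (h1 : |d.re| ≤ R) (h2 : |d.im| ≤ R) : d ∈ sq R := by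
  unfold sq
  rw [Finset.mem_image]
  exact ⟨(d.re, d.im), by
    rw [Finset.mem_product, Finset.mem_Icc, Finset.mem_Icc]
    exact ⟨abs_le.1 h1, abs_le.1 h2⟩, rfl⟩

lemma abs_re_sub_le (u v : ℂ) : |u.re - v.re| ≤ dist u v := by
  rw [Complex.dist_eq, ← Complex.sub_re]; exact Complex.abs_re_le_norm _

lemma abs_im_sub_le (u v : ℂ) : |u.im - v.im| ≤ dist u v := by
  rw [Complex.dist_eq, ← Complex.sub_im]; exact Complex.abs_im_le_norm _

lemma aeval_int (A : ℤ[X]) (x : ℤ) : aeval (x : ℝ) A = ((A.eval x : ℤ) : ℝ) := by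
  rw [aeval_def, eval₂_eq_eval_map]
  simp

/-- No infinite walk of `G_D` follows an end of a polynomial curve at bounded distance. -/
theorem no_walk {A B : ℤ[X]} (h : 0 < A.natDegree ∨ 0 < B.natDegree) {D w : ℝ}
    {γ : ℕ → {z : GaussianInt // Prime z}} (hγ : IsInfinitePath D γ) {t : ℕ → ℝ}
    (ht : Tendsto t atTop atTop)
    (hw : ∀ᶠ n in atTop, dist (GaussianInt.toComplex (γ n).1)
      ⟨aeval (t n) A, aeval (t n) B⟩ ≤ w) : False := by
  have hinj : Function.Injective (algebraMap ℤ ℝ) := RingHom.injective_int _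
  have hev : ∀ (P : ℤ[X]) (s : ℝ), aeval s P = (P.map (algebraMap ℤ ℝ)).eval s := by
    intro P s; rw [aeval_def, eval₂_eq_eval_map]
  obtain ⟨a, b, C, T, hC, htend, hmono, hbd⟩ := level (A.map (algebraMap ℤ ℝ))
    (B.map (algebraMap ℤ ℝ)) (by
      rwa [natDegree_map_eq_of_injective hinj, natDegree_map_eq_of_injective hinj])
  simp_rw [← hev] at htend hmono hbd
  obtain ⟨g, hg⟩ : ∃ g : ℝ → ℝ, ∀ s, g s = a * aeval s A + b * aeval s B := ⟨_, fun s => rfl⟩
  simp_rw [← hg] at htend hmono hbd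
  obtain ⟨n₁, hn₁⟩ := eventually_atTop.1 (hw.and (ht.eventually (eventually_ge_atTop T)))
  obtain ⟨E, hE⟩ : ∃ E, E = (|a| + |b|) * (D + 2 * w) := ⟨_, rfl⟩
  have hstep : ∀ n, n₁ ≤ n → |g (t (n + 1)) - g (t n)| ≤ E := by
    intro n hn
    have d1 := (hn₁ n hn).1
    have d2 := (hn₁ (n + 1) (by omega)).1
    have d3 := (hγ.2 n).2
    have d4 : dist (⟨aeval (t (n + 1)) A, aeval (t (n + 1)) B⟩ : ℂ)
        ⟨aeval (t n) A, aeval (t n) B⟩ ≤ D + 2 * w := by
      have e1 := dist_triangle (⟨aeval (t (n + 1)) A, aeval (t (n + 1)) B⟩ : ℂ)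
        (GaussianInt.toComplex (γ (n + 1)).1) ⟨aeval (t n) A, aeval (t n) B⟩
      have e2 := dist_triangle (GaussianInt.toComplex (γ (n + 1)).1)
        (GaussianInt.toComplex (γ n).1) (⟨aeval (t n) A, aeval (t n) B⟩ : ℂ)
      rw [dist_comm] at d2 d3
      linarith
    have e1 := (abs_re_sub_le _ _).trans d4
    have e2 := (abs_im_sub_le _ _).trans d4
    simp only at e1 e2
    rw [hg, hg, hE]
    have e3 : a * aeval (t (n + 1)) A + b * aeval (t (n + 1)) B -
        (a * aeval (t n) A + b * aeval (t n) B) =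
        a * (aeval (t (n + 1)) A - aeval (t n) A) + b * (aeval (t (n + 1)) B - aeval (t n) B) := by
      ring
    rw [e3]
    refine (abs_add_le _ _).trans ?_
    rw [abs_mul, abs_mul, add_mul]
    exact add_le_add (mul_le_mul_of_nonneg_left e1 (abs_nonneg _))
      (mul_le_mul_of_nonneg_left e2 (abs_nonneg _))
  -- the barrier
  have hZ : ∀ᶠ x : ℤ in atTop, T ≤ (x : ℝ) ∧ g (t n₁) < g (x : ℝ) :=
    (tendsto_intCast_atTop_atTop.eventually (eventually_ge_atTop T)).and
      ((htend.comp tendsto_intCast_atTop_atTop).eventually (eventually_gt_atTop (g (t n₁))))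
  obtain ⟨N, hN⟩ := eventually_atTop.1 hZ
  obtain ⟨x, hxN, hx⟩ := barrier h N (sq ⌈w + C * E⌉)
  obtain ⟨hTx, hgx⟩ := hN x hxN
  -- the crossing
  have hcross : ∃ n, n₁ ≤ n ∧ g (t n) < g x ∧ g x ≤ g (t (n + 1)) := by
    by_contra hcon
    push Not at hcon
    have hall : ∀ n, n₁ ≤ n → g (t n) < g x := by
      intro n hn
      induction n, hn using Nat.le_induction with
      | base => exact hgx
      | succ n hn ih => exact hcon n hn ih
    obtain ⟨n, hn1, hn2⟩ := (((htend.comp ht).eventually (eventually_ge_atTop (g x))).and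
      (eventually_ge_atTop n₁)).exists
    exact absurd (hall n hn2) (not_lt.2 hn1)
  obtain ⟨n, hn, hlt, hle⟩ := hcross
  have hgE : |g (t (n + 1)) - g x| ≤ E := by
    rw [abs_of_nonneg (by linarith)]
    have := (le_abs_self _).trans (hstep n hn)
    linarith
  obtain ⟨hd, hTt⟩ := hn₁ (n + 1) (by omega)
  obtain ⟨b1, b2, -⟩ := hbd x (t (n + 1)) hTx hTt
  have b1' := b1.trans (mul_le_mul_of_nonneg_left hgE hC)
  have b2' := b2.trans (mul_le_mul_of_nonneg_left hgE hC)
  obtain ⟨z, hz⟩ : ∃ z, z = (γ (n + 1)).1 := ⟨_, rfl⟩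
  have c1 := (abs_re_sub_le _ _).trans hd
  have c2 := (abs_im_sub_le _ _).trans hd
  rw [← hz] at c1 c2
  rw [← GaussianInt.intCast_re] at c1
  rw [← GaussianInt.intCast_im] at c2
  rw [aeval_int] at b1' b2'
  refine hx (z - pt A B x) (mem_sq ?_ ?_) ?_
  · have : (|(z - pt A B x).re| : ℝ) ≤ w + C * E := by
      have e : (((z - pt A B x).re : ℤ) : ℝ) = (z.re - aeval (t (n + 1)) A) +
          (aeval (t (n + 1)) A - ((A.eval x : ℤ) : ℝ)) := by
        simp [pt, Zsqrtd.re_sub]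
      rw [e]
      exact (abs_add_le _ _).trans (add_le_add c1 b1')
    have h2 := this.trans (Int.le_ceil _)
    exact_mod_cast h2
  · have : (|(z - pt A B x).im| : ℝ) ≤ w + C * E := by
      have e : (((z - pt A B x).im : ℤ) : ℝ) = (z.im - aeval (t (n + 1)) B) +
          (aeval (t (n + 1)) B - ((B.eval x : ℤ) : ℝ)) := by
        simp [pt, Zsqrtd.im_sub]
      rw [e]
      exact (abs_add_le _ _).trans (add_le_add c2 b2')
    have h2 := this.trans (Int.le_ceil _)
    exact_mod_cast h2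
  · have e : pt A B x + (z - pt A B x) = z := by ring
    rw [e, hz]
    exact (γ (n + 1)).2

end Vale.Agent.P015.H542b
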