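import Vale.Agent.P015.H542b.Quant

/-! # P015: no infinite walk along a polynomial curve, growing width -/

open Polynomial Filter

namespace Vale.Agent.P015.H542b

/-- No infinite walk of `G_D` follows an end of a polynomial curve at distance
`(log t)^β`, `β < 1/2`. -/
theorem no_walk_log {A B : ℤ[X]} (h : 0 < A.natDegree ∨ 0 < B.natDegree) {D β : ℝ}
    (hβ0 : 0 < β) (hβ : β < 1 / 2)
    {γ : ℕ → {z : GaussianInt // Prime z}} (hγ : IsInfinitePath D γ) {t : ℕ → ℝ}
    (ht : Tendsto t atTop atTop)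
    (hw : ∀ᶠ n in atTop, dist (GaussianInt.toComplex (γ n).1)
      ⟨aeval (t n) A, aeval (t n) B⟩ ≤ Real.log (t n) ^ β) : False := by
  have hinj : Function.Injective (algebraMap ℤ ℝ) := RingHom.injective_int _
  have hev : ∀ (P : ℤ[X]) (s : ℝ), aeval s P = (P.map (algebraMap ℤ ℝ)).eval s := by
    intro P s; rw [aeval_def, eval₂_eq_eval_map]
  obtain ⟨a, b, C, T, hC, htend, hmono, hbd⟩ := level (A.map (algebraMap ℤ ℝ))
    (B.map (algebraMap ℤ ℝ)) (by
      rwa [natDegree_map_eq_of_injective hinj, natDegree_map_eq_of_injective hinj])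
  simp_rw [← hev] at htend hmono hbd
  obtain ⟨g, hg⟩ : ∃ g : ℝ → ℝ, ∀ s, g s = a * aeval s A + b * aeval s B := ⟨_, fun s => rfl⟩
  simp_rw [← hg] at htend hmono hbd
  obtain ⟨β', hβ'1, hβ'2⟩ := exists_between hβ
  have hβ'0 : 0 < β' := hβ0.trans hβ'1
  obtain ⟨c, hc⟩ : ∃ c, c = |a| + |b| := ⟨_, rfl⟩
  have hc0 : 0 ≤ c := by rw [hc]; positivity
  have hD : 0 ≤ D := dist_nonneg.trans (hγ.2 0).2
  -- the size of `log t ^ β`
  have hsmall : ∀ᶠ s : ℝ in atTop, C * c * (D + 2 * Real.log s ^ β) ≤ s / 2 := by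
    have h1 : ∀ᶠ s : ℝ in atTop, Real.log s ^ β ≤ Real.log s := by
      filter_upwards [Real.tendsto_log_atTop.eventually (eventually_ge_atTop 1)] with s hs
      calc Real.log s ^ β ≤ Real.log s ^ (1 : ℝ) :=
            Real.rpow_le_rpow_of_exponent_le hs (by linarith)
        _ = Real.log s := Real.rpow_one _
    have h2 := Real.isLittleO_log_id_atTop.bound
      (show (0 : ℝ) < 1 / (8 * (C * c + 1)) by positivity)
    filter_upwards [h1, h2, eventually_ge_atTop (4 * (C * c * D)), eventually_ge_atTop 1]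
      with s hs1 hs2 hs3 hs4
    rw [id, Real.norm_eq_abs, Real.norm_eq_abs, abs_of_nonneg (Real.log_nonneg hs4),
      abs_of_nonneg (by linarith : (0 : ℝ) ≤ s)] at hs2
    have hCc : 0 ≤ C * c := by positivity
    have h3 : (C * c) * Real.log s ≤ s / 8 := by
      have h4 : (C * c) * Real.log s ≤ (C * c + 1) * Real.log s :=
        mul_le_mul_of_nonneg_right (by linarith) (Real.log_nonneg hs4)
      have h5 := mul_le_mul_of_nonneg_left hs2 (show (0 : ℝ) ≤ C * c + 1 by linarith)
      have e : (C * c + 1) * (1 / (8 * (C * c + 1)) * s) = s / 8 := by field_simp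
      rw [e] at h5
      linarith
    have h6 := mul_le_mul_of_nonneg_left hs1 hCc
    linarith
  have hbig : ∀ᶠ s : ℝ in atTop, (1 + 2 * (C * c)) * Real.log (2 * s) ^ β + C * c * D ≤
      Real.log s ^ β' := by
    have hl := Real.tendsto_log_atTop
    have h1 : Tendsto (fun s => Real.log s ^ (β' - β)) atTop atTop :=
      (tendsto_rpow_atTop (by linarith)).comp hl
    filter_upwards [h1.eventually (eventually_ge_atTop ((1 + 2 * (C * c)) * 2 + C * c * D)),
      hl.eventually (eventually_ge_atTop 1), eventually_ge_atTop 1] with s h2 h3 h4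
    have h5 : Real.log (2 * s) ≤ 2 * Real.log s := by
      rw [Real.log_mul (by norm_num) (by linarith)]
      have : Real.log 2 ≤ 1 := by have := Real.log_two_lt_d9; linarith
      linarith
    have h5' : 0 ≤ Real.log (2 * s) := Real.log_nonneg (by linarith)
    have h6 : Real.log (2 * s) ^ β ≤ 2 * Real.log s ^ β := by
      refine (Real.rpow_le_rpow h5' h5 hβ0.le).trans ?_
      rw [Real.mul_rpow (by norm_num) (by linarith)]
      apply mul_le_mul_of_nonneg_right _ (by positivity)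
      calc (2 : ℝ) ^ β ≤ 2 ^ (1 : ℝ) :=
            Real.rpow_le_rpow_of_exponent_le (by norm_num) (by linarith)
        _ = 2 := Real.rpow_one _
    have h7 : 1 ≤ Real.log s ^ β := Real.one_le_rpow h3 hβ0.le
    have hCc : 0 ≤ C * c := by positivity
    have h8 : Real.log s ^ β' = Real.log s ^ (β' - β) * Real.log s ^ β := by
      rw [← Real.rpow_add (by linarith)]; congr 1; ring
    rw [h8]
    have h9 := mul_le_mul_of_nonneg_right h2 (show (0 : ℝ) ≤ Real.log s ^ β by linarith)
    have h10 := mul_le_mul_of_nonneg_left h6 (show (0 : ℝ) ≤ 1 + 2 * (C * c) by linarith)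
    have h11 : C * c * D ≤ C * c * D * Real.log s ^ β :=
      le_mul_of_one_le_right (by positivity) h7
    linarith
  obtain ⟨n₁, hn₁⟩ := eventually_atTop.1 (hw.and ((ht.eventually (eventually_ge_atTop T)).and
    ((ht.eventually hsmall).and (ht.eventually (eventually_ge_atTop 1)))))
  have hstep : ∀ n, n₁ ≤ n → |g (t (n + 1)) - g (t n)| ≤
      c * (D + Real.log (t n) ^ β + Real.log (t (n + 1)) ^ β) := by
    intro n hn
    have d1 := (hn₁ n hn).1
    have d2 := (hn₁ (n + 1) (by omega)).1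
    have d3 := (hγ.2 n).2
    have d4 : dist (⟨aeval (t (n + 1)) A, aeval (t (n + 1)) B⟩ : ℂ)
        ⟨aeval (t n) A, aeval (t n) B⟩ ≤ D + Real.log (t n) ^ β + Real.log (t (n + 1)) ^ β := by
      have e1 := dist_triangle (⟨aeval (t (n + 1)) A, aeval (t (n + 1)) B⟩ : ℂ)
        (GaussianInt.toComplex (γ (n + 1)).1) ⟨aeval (t n) A, aeval (t n) B⟩
      have e2 := dist_triangle (GaussianInt.toComplex (γ (n + 1)).1)
        (GaussianInt.toComplex (γ n).1) (⟨aeval (t n) A, aeval (t n) B⟩ : ℂ)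
      rw [dist_comm] at d2 d3
      linarith
    have e1 := (abs_re_sub_le _ _).trans d4
    have e2 := (abs_im_sub_le _ _).trans d4
    simp only at e1 e2
    rw [hg, hg, hc]
    have e3 : a * aeval (t (n + 1)) A + b * aeval (t (n + 1)) B -
        (a * aeval (t n) A + b * aeval (t n) B) =
        a * (aeval (t (n + 1)) A - aeval (t n) A) + b * (aeval (t (n + 1)) B - aeval (t n) B) := by
      ring
    rw [e3]
    refine (abs_add_le _ _).trans ?_
    rw [abs_mul, abs_mul, add_mul]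
    exact add_le_add (mul_le_mul_of_nonneg_left e1 (abs_nonneg _))
      (mul_le_mul_of_nonneg_left e2 (abs_nonneg _))
  -- the barrier
  have hZ : ∀ᶠ x : ℤ in atTop, (T ≤ (x : ℝ) ∧ g (t n₁) < g (x : ℝ)) ∧
      (1 + 2 * (C * c)) * Real.log (2 * (x : ℝ)) ^ β + C * c * D ≤ Real.log (x : ℝ) ^ β' :=
    ((tendsto_intCast_atTop_atTop.eventually (eventually_ge_atTop T)).and
      ((htend.comp tendsto_intCast_atTop_atTop).eventually (eventually_gt_atTop (g (t n₁))))).and
      (tendsto_intCast_atTop_atTop.eventually hbig)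
  obtain ⟨N, hN⟩ := eventually_atTop.1 hZ
  obtain ⟨x, hxN, hx⟩ := barrier_log h hβ'0 hβ'2 N
  obtain ⟨⟨hTx, hgx⟩, hbx⟩ := hN x hxN
  -- the crossing
  have hcross : ∃ n, n₁ ≤ n ∧ g (t n) < g x ∧ g x ≤ g (t (n + 1)) := by
    by_contra hcon
    push Not at hcon
    have hall : ∀ n, n₁ ≤ n → g (t n) < g x := by
      intro n hn
      induction n, hn using Nat.le_induction with
      | base => exact hgx
      | succ n hn ih => exact hcon n hn ih
    obtain ⟨n, hn1, hn2⟩ := (((htend.comp ht).eventually (eventually_ge_atTop (g x))).and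
      (eventually_ge_atTop n₁)).exists
    exact absurd (hall n hn2) (not_lt.2 hn1)
  obtain ⟨n, hn, hlt, hle⟩ := hcross
  obtain ⟨-, hTn, -, ht1⟩ := hn₁ n hn
  obtain ⟨hd, hTt, hsm, ht1'⟩ := hn₁ (n + 1) (by omega)
  have htx : t n < x := (hmono.lt_iff_lt (Set.mem_Ici.2 hTn) (Set.mem_Ici.2 hTx)).1 hlt
  have hxt : (x : ℝ) ≤ t (n + 1) :=
    (hmono.le_iff_le (Set.mem_Ici.2 hTx) (Set.mem_Ici.2 hTt)).1 hle
  have hlogmono : ∀ u v : ℝ, 1 ≤ u → u ≤ v → Real.log u ^ β ≤ Real.log v ^ β := fun u v hu huv =>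
    Real.rpow_le_rpow (Real.log_nonneg hu) (Real.log_le_log (by linarith) huv) hβ0.le
  have hs := hstep n hn
  have hgE : |g (t (n + 1)) - g x| ≤
      c * (D + 2 * Real.log (t (n + 1)) ^ β) := by
    rw [abs_of_nonneg (by linarith)]
    have h1 := (le_abs_self _).trans hs
    have h2 := hlogmono (t n) (t (n + 1)) ht1 (by linarith)
    have h3 := mul_le_mul_of_nonneg_left h2 hc0
    linarith
  obtain ⟨-, -, b3⟩ := hbd x (t (n + 1)) hTx hTt
  have hup : t (n + 1) ≤ 2 * x := by
    have h1 := b3.trans (mul_le_mul_of_nonneg_left hgE hC)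
    have h2 := (le_abs_self _).trans h1
    rw [← mul_assoc] at h2
    linarith
  have hL := hlogmono (t (n + 1)) (2 * x) ht1' hup
  have hgE' : |g (t (n + 1)) - g x| ≤ c * (D + 2 * Real.log (2 * (x : ℝ)) ^ β) :=
    hgE.trans (mul_le_mul_of_nonneg_left (by linarith) hc0)
  obtain ⟨b1, b2, -⟩ := hbd x (t (n + 1)) hTx hTt
  have b1' := b1.trans (mul_le_mul_of_nonneg_left hgE' hC)
  have b2' := b2.trans (mul_le_mul_of_nonneg_left hgE' hC)
  obtain ⟨z, hz⟩ : ∃ z, z = (γ (n + 1)).1 := ⟨_, rfl⟩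
  have c1 := (abs_re_sub_le _ _).trans hd
  have c2 := (abs_im_sub_le _ _).trans hd
  rw [← hz] at c1 c2
  simp only at c1 c2
  rw [← GaussianInt.intCast_re] at c1
  rw [← GaussianInt.intCast_im] at c2
  rw [aeval_int] at b1' b2'
  refine hx z ?_ ?_ (hz ▸ (γ (n + 1)).2)
  · have e : (z.re : ℝ) - ((A.eval x : ℤ) : ℝ) = (z.re - aeval (t (n + 1)) A) +
        (aeval (t (n + 1)) A - ((A.eval x : ℤ) : ℝ)) := by ring
    rw [e]
    have := (abs_add_le _ _).trans (add_le_add c1 b1')
    refine this.trans (le_trans ?_ hbx)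
    linarith
  · have e : (z.im : ℝ) - ((B.eval x : ℤ) : ℝ) = (z.im - aeval (t (n + 1)) B) +
        (aeval (t (n + 1)) B - ((B.eval x : ℤ) : ℝ)) := by ring
    rw [e]
    have := (abs_add_le _ _).trans (add_le_add c2 b2')
    refine this.trans (le_trans ?_ hbx)
    linarith

end Vale.Agent.P015.H542b
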